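import Vale.Agent.P022.H239.CYF2
import Vale.Agent.P022.H368.CyfField

/-!
P022, Artin reciprocity, block [CYF]: the cyclic cyclotomic extension attached to a character.
-/

open NumberField IsDedekindDomain TensorProduct Finset Module Polynomial
open scoped Pointwise

noncomputable section

namespace Vale.Agent.P022.H239

open Vale.Agent.P022.C

section

variable {K : Type} [Field K] [NumberField K] (M : ℕ) [NeZero M] (C : Type) [Field C]
  [NumberField C] [Algebra K C] [IsCyclotomicExtension {M} K C]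

/-- the conjugation clause of [CYF] -/
theorem conj_clause (hirr : Irreducible (cyclotomic M K)) (L' : IntermediateField K C)
    (σ : L' ≃ₐ[K] L') {n : ℕ} (χ : (ZMod M)ˣ →* Multiplicative (ZMod n))
    (hres : ∀ (g : C ≃ₐ[K] C) (b : ℕ), (b : ZMod n) = Multiplicative.toAdd
      (χ (IsCyclotomicExtension.autEquivPow C hirr g)) → ∀ x : L', g (x : C) = ((σ ^ b) x : L'))
    (ρ : L' →+* ℂ) (φ : K →+* ℝ) (hρ : ∀ x : K, ρ (algebraMap K L' x) = (φ x : ℂ)) (b : ℕ)
    (hb : (b : ZMod n) = ex χ (-1)) (x : L') : starRingEnd ℂ (ρ x) = ρ ((σ ^ b) x) := by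
  have hζ := IsCyclotomicExtension.zeta_spec M K C
  set ζ := IsCyclotomicExtension.zeta M K C with hζd
  -- extend `ρ` to `C`
  let _ : Algebra L' ℂ := ρ.toAlgebra
  have : Algebra.IsAlgebraic L' C := Algebra.IsAlgebraic.tower_top (K := K) L'
  let r : C →ₐ[L'] ℂ := IsAlgClosed.lift
  have hr : ∀ y : L', r (y : C) = ρ y := fun y => r.commutes y
  -- complex conjugation on `C`
  let c : C ≃ₐ[K] C := (IsCyclotomicExtension.autEquivPow C hirr).symm (-1)
  have hc : IsCyclotomicExtension.autEquivPow C hirr c = -1 := MulEquiv.apply_symm_apply _ _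
  have hcζ : c ζ * ζ = 1 := by
    have h1 := hζ.autToPow_spec K c
    have h2 : hζ.autToPow K c = -1 := hc
    rw [h2] at h1
    rw [← h1, ← pow_succ, hζ.pow_eq_one_iff_dvd]
    rw [← ZMod.natCast_eq_zero_iff, Nat.cast_add, ZMod.natCast_zmod_val]
    simp
  have hb' : (b : ZMod n) = Multiplicative.toAdd
      (χ (IsCyclotomicExtension.autEquivPow C hirr c)) := by
    rw [hb, hc, ex]
    have hu : IsUnit (-1 : ZMod M) := isUnit_one.neg
    rw [dif_pos hu]
    congr 2
    exact Units.ext (by rw [IsUnit.unit_spec hu]; simp)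
  have h2 := hres c b hb' x
  rw [← hr, ← hr ((σ ^ b) x), ← h2]
  -- both sides are `K`-embeddings of `C`
  let _ : Algebra K ℂ := ((algebraMap ℝ ℂ).comp φ).toAlgebra
  let f₁ : C →ₐ[K] ℂ :=
    { ((starRingEnd ℂ).comp (r : C →+* ℂ)) with
      commutes' := fun k => by
        change starRingEnd ℂ (r (algebraMap K C k)) = ((φ k : ℝ) : ℂ)
        have : algebraMap K C k = ((algebraMap K L' k : L') : C) := rfl
        rw [this, hr, hρ, Complex.conj_ofReal] }
  let f₂ : C →ₐ[K] ℂ :=
    { ((r : C →+* ℂ).comp (c : C →+* C)) with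
      commutes' := fun k => by
        change r (c (algebraMap K C k)) = ((φ k : ℝ) : ℂ)
        have : algebraMap K C k = ((algebraMap K L' k : L') : C) := rfl
        rw [AlgEquiv.commutes, this, hr, hρ] }
  have hf : f₁ = f₂ := by
    apply (hζ.powerBasis K).algHom_ext
    rw [IsPrimitiveRoot.powerBasis_gen]
    change starRingEnd ℂ (r ζ) = r (c ζ)
    have h3 : (r ζ) ^ M = 1 := by rw [← map_pow, hζ.pow_eq_one, map_one]
    have h4 : starRingEnd ℂ (r ζ) = (r ζ)⁻¹ := by
      have h5 := Complex.norm_eq_one_of_pow_eq_one h3 (NeZero.ne M)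
      rw [Complex.inv_def, Complex.normSq_eq_norm_sq, h5]
      simp
    rw [h4]
    refine inv_eq_of_mul_eq_one_left ?_
    rw [← map_mul, hcζ, map_one]
  exact DFunLike.congr_fun hf (x : C)

end

/-- [CYF] -/
theorem CYF : CYFStmt := by
  intro K L _ _ _ _ _ M hM0 hML n hn χ hχ
  have : NeZero M := ⟨hM0.ne'⟩
  obtain ⟨hirr, L', σ, hG, hC, hF, hres⟩ :=
    Vale.Agent.P022.H368.CYF.cyf_field K L M hML n hn χ hχ
  have : NumberField (CyclotomicField M K) := IsCyclotomicExtension.numberField {M} K _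
  refine ⟨L', inferInstance, inferInstance, inferInstance, σ, hC, hF, ?_, ?_⟩
  · intro P hP hP0 hM
    exact prime_clause M (CyclotomicField M K) hirr L' σ χ hres P hP hP0 hM
  · intro ρ φ hρ b hb x
    exact conj_clause M (CyclotomicField M K) hirr L' σ χ hres ρ φ hρ b hb x

end Vale.Agent.P022.H239
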