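import Vale.Agent.P022.H567.Cft

/-!
P022, Artin reciprocity, block [CYF]: the prime clauses (inertia and Frobenius in a subfield of a
cyclotomic extension).
-/

open NumberField IsDedekindDomain TensorProduct Finset Module
open scoped Pointwise

noncomputable section

namespace Vale.Agent.P022.H239

open Vale.Agent.P022.C

/-- a cyclic extension is Galois -/
theorem galois_of_cyc {K L : Type} [Field K] [Field L] [Algebra K L] {n : ℕ} {σ : L ≃ₐ[K] L}
    (h : Cyc K n σ) : IsGalois K L := by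
  have : FiniteDimensional K L := FiniteDimensional.of_finrank_pos (by rw [h.rank]; exact h.pos)
  have h1 : Nat.card (Subgroup.zpowers σ) = n := by rw [Nat.card_zpowers, h.ord]
  have h2 : Nat.card (Subgroup.zpowers σ) ≤ Nat.card (L ≃ₐ[K] L) :=
    Nat.card_le_card_of_injective _ (Subtype.val_injective)
  have h3 : Nat.card (L ≃ₐ[K] L) ≤ finrank K L := by
    have := AlgEquiv.card_le (F := K) (K := L)
    rwa [Fintype.card_eq_nat_card] at this
  refine IsGalois.of_card_aut_eq_finrank K L ?_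
  have := h.rank
  omega

section tower

variable {K L C : Type} [Field K] [NumberField K] [Field L] [NumberField L] [Field C]
  [NumberField C] [Algebra K L] [Algebra K C] [Algebra L C] [IsScalarTower K L C]

/-- inertia is trivial below if it is trivial above -/
theorem inertia_tower [IsGalois K L] [IsGalois K C] (v : HeightOneSpectrum (𝓞 K))
    (P : Ideal (𝓞 L)) [P.IsPrime] [P.LiesOver v.asIdeal] (Q : Ideal (𝓞 C)) [Q.IsPrime]
    [Q.LiesOver P] (hQ : ∀ g : C ≃ₐ[K] C, (∀ x : 𝓞 C, g • x - x ∈ Q) → g = 1)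
    (g : L ≃ₐ[K] L) (hg : ∀ x : 𝓞 L, g • x - x ∈ P) : g = 1 := by
  have : Q.LiesOver v.asIdeal := Ideal.LiesOver.trans Q P v.asIdeal
  have : IsGalois L C := IsGalois.tower_top_of_isGalois K L C
  have h1 : Q.inertia (C ≃ₐ[K] C) = ⊥ := by
    rw [eq_bot_iff]
    intro g hg
    exact hQ g hg
  have h2 := Ideal.card_inertia_eq_ramificationIdxIn (G := C ≃ₐ[K] C) v.asIdeal Q
  have h3 := Ideal.card_inertia_eq_ramificationIdxIn (G := L ≃ₐ[K] L) v.asIdeal P
  have h4 := Ideal.ramificationIdxIn_mul_ramificationIdxIn (p := v.asIdeal) P (L ≃ₐ[K] L) (𝓞 C)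
    (C ≃ₐ[K] C) (C ≃ₐ[L] C)
  rw [h1] at h2
  have h5 : Nat.card (P.inertia (L ≃ₐ[K] L)) = 1 := by
    rw [← h2, ← h3] at h4
    have : Nat.card (⊥ : Subgroup (C ≃ₐ[K] C)) = 1 := Subgroup.card_bot
    rw [this] at h4
    exact Nat.eq_one_of_mul_eq_one_right h4
  have h6 : P.inertia (L ≃ₐ[K] L) = ⊥ := Subgroup.card_eq_one.mp h5
  have h7 : g ∈ P.inertia (L ≃ₐ[K] L) := hg
  rw [h6] at h7
  exact h7

end tower

end Vale.Agent.P022.H239
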