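import Vale.Agent.P022.H239.CYF0

/-!
P022, Artin reciprocity, block [CYF]: Frobenius elements and inertia in a cyclotomic field.
-/

open NumberField IsDedekindDomain TensorProduct Finset Module Polynomial
open scoped Pointwise

noncomputable section

namespace Vale.Agent.P022.H239

open Vale.Agent.P022.C

section

variable {K : Type} [Field K] [NumberField K] (M : ℕ) [NeZero M] (C : Type) [Field C]
  [NumberField C] [Algebra K C] [IsCyclotomicExtension {M} K C]

/-- an automorphism is determined by its value at `ζ` -/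
theorem ext_zeta (g : C ≃ₐ[K] C)
    (hg : g (IsCyclotomicExtension.zeta M K C) = IsCyclotomicExtension.zeta M K C) : g = 1 := by
  have hζ := IsCyclotomicExtension.zeta_spec M K C
  have h : (g : C →ₐ[K] C) = AlgHom.id K C := by
    apply (hζ.powerBasis K).algHom_ext
    rw [IsPrimitiveRoot.powerBasis_gen]
    exact hg
  ext x
  exact DFunLike.congr_fun h x

/-- the inertia group of a prime not above `M` is trivial -/
theorem inertia_cyc (Q : Ideal (𝓞 C)) [Q.IsPrime] (hM : (M : 𝓞 C) ∉ Q) (g : C ≃ₐ[K] C)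
    (hg : ∀ x : 𝓞 C, g • x - x ∈ Q) : g = 1 := by
  have hζ := IsCyclotomicExtension.zeta_spec M K C
  set ζ := IsCyclotomicExtension.zeta M K C with hζd
  set z : 𝓞 C := hζ.toInteger with hz
  have hzp : IsPrimitiveRoot z M := hζ.toInteger_isPrimitiveRoot
  have h1 : (g • z) ^ M = 1 := by rw [← smul_pow', hzp.pow_eq_one, smul_one]
  obtain ⟨i, hi, hzi⟩ := hzp.eq_pow_of_pow_eq_one h1
  have h2 := hg z
  rw [← hzi] at h2
  -- `z ^ i ≡ z`, so `z ^ i = z`
  have hgz : g • z = z := by
    by_contra hne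
    have hne' : z ^ i ≠ z := by rwa [hzi]
    -- `z ^ (i + M - 1) ≠ 1`
    have hzu : IsUnit z := hzp.isUnit (NeZero.ne M)
    set w : 𝓞 C := z ^ (i + (M - 1)) with hw
    have hM1 : 1 ≤ M := NeZero.one_le
    have hzw : z * w = z ^ i := by
      rw [hw, ← pow_succ', show i + (M - 1) + 1 = i + M by omega, pow_add, hzp.pow_eq_one, mul_one]
    have hw1 : w ≠ 1 := by
      intro h
      rw [h, mul_one] at hzw
      exact hne' hzw.symm
    have hwM : w ^ M = 1 := by rw [hw, pow_right_comm, hzp.pow_eq_one, one_pow]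
    have hwQ : w - 1 ∈ Q := by
      have : z * (w - 1) ∈ Q := by
        rw [mul_sub, hzw, mul_one]; exact h2
      exact (Ideal.unit_mul_mem_iff_mem Q hzu).1 this
    have hsum : ∑ j ∈ range M, w ^ j = 0 := by
      have h3 := geom_sum_mul w M
      rw [hwM, sub_self, mul_eq_zero] at h3
      rcases h3 with h3 | h3
      · exact h3
      · exact absurd (sub_eq_zero.1 h3) hw1
    have hmem : ∑ j ∈ range M, (w ^ j - 1) ∈ Q := by
      refine sum_mem fun j _ => ?_
      have : w - 1 ∣ w ^ j - 1 := by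
        have := sub_dvd_pow_sub_pow w 1 j
        rwa [one_pow] at this
      exact Q.mem_of_dvd this hwQ
    rw [Finset.sum_sub_distrib, hsum] at hmem
    simp only [sum_const, card_range, nsmul_eq_mul, mul_one, zero_sub] at hmem
    exact hM (neg_mem_iff.1 hmem)
  refine ext_zeta M C g ?_
  have := congrArg (algebraMap (𝓞 C) C) hgz
  exact this

/-- the Frobenius at `Q` and the character -/
theorem frob_cyc (hirr : Irreducible (cyclotomic M K)) (Q : Ideal (𝓞 C)) [Q.IsPrime]
    (hQ : Q ≠ ⊥) (hM : (M : 𝓞 C) ∉ Q) :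
    ∃ g : C ≃ₐ[K] C, (∀ x : 𝓞 C, g • x - x ^ Ideal.absNorm (Q.under (𝓞 K)) ∈ Q) ∧
      ((IsCyclotomicExtension.autEquivPow C hirr g : (ZMod M)ˣ) : ZMod M) =
        (Ideal.absNorm (Q.under (𝓞 K)) : ZMod M) := by
  have : IsGalois K C := IsCyclotomicExtension.isGalois {M} K C
  have : Finite (𝓞 C ⧸ Q) := Ideal.finiteQuotientOfFreeOfNeBot Q hQ
  obtain ⟨g, hg⟩ := IsArithFrobAt.exists_of_isInvariant (𝓞 K) (C ≃ₐ[K] C) Q
  have hcard : Nat.card (𝓞 K ⧸ Q.under (𝓞 K)) = Ideal.absNorm (Q.under (𝓞 K)) := by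
    rw [Ideal.absNorm_apply, Submodule.cardQuot_apply]
  refine ⟨g, fun x => ?_, ?_⟩
  · rw [← hcard]; exact hg x
  · have hζ := IsCyclotomicExtension.zeta_spec M K C
    set ζ := IsCyclotomicExtension.zeta M K C with hζd
    set z : 𝓞 C := hζ.toInteger with hz
    have hzp : IsPrimitiveRoot z M := hζ.toInteger_isPrimitiveRoot
    have h1 := AlgHom.IsArithFrobAt.apply_of_pow_eq_one hg hzp.pow_eq_one hM
    rw [hcard] at h1
    have h2 : g ζ = ζ ^ Ideal.absNorm (Q.under (𝓞 K)) := by
      have := congrArg (algebraMap (𝓞 C) C) h1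
      rw [map_pow] at this
      exact this
    have h3 := hζ.autToPow_spec K g
    rw [h2] at h3
    have hu : IsUnit ζ := hζ.isUnit (NeZero.ne M)
    have h5 : ((hζ.autToPow K g : (ZMod M)ˣ) : ZMod M).val ≡
        Ideal.absNorm (Q.under (𝓞 K)) [MOD M] := by
      have h7 : hu.unit ^ ((hζ.autToPow K g : (ZMod M)ˣ) : ZMod M).val =
          hu.unit ^ Ideal.absNorm (Q.under (𝓞 K)) := by
        apply Units.ext
        rw [Units.val_pow_eq_pow_val, Units.val_pow_eq_pow_val, IsUnit.unit_spec]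
        exact h3
      have h8 := pow_eq_pow_iff_modEq.1 h7
      rwa [← orderOf_units, IsUnit.unit_spec, ← hζ.eq_orderOf] at h8
    have h6 := (ZMod.natCast_eq_natCast_iff _ _ _).2 h5
    rw [ZMod.natCast_val, ZMod.cast_id', id] at h6
    exact h6

end

end Vale.Agent.P022.H239
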