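import Vale.Agent.P022.H239.CYF1

/-!
P022, Artin reciprocity, block [CYF]: the prime clause.
-/

open NumberField IsDedekindDomain TensorProduct Finset Module Polynomial
open scoped Pointwise

noncomputable section

namespace Vale.Agent.P022.H239

open Vale.Agent.P022.C

section

variable {K : Type} [Field K] [NumberField K] (M : ℕ) [NeZero M] (C : Type) [Field C]
  [NumberField C] [Algebra K C] [IsCyclotomicExtension {M} K C]

/-- the prime clause of [CYF] -/
theorem prime_clause (hirr : Irreducible (cyclotomic M K)) (L' : IntermediateField K C)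
    [IsGalois K L'] (σ : L' ≃ₐ[K] L') {n : ℕ} (χ : (ZMod M)ˣ →* Multiplicative (ZMod n))
    (hres : ∀ (g : C ≃ₐ[K] C) (b : ℕ), (b : ZMod n) = Multiplicative.toAdd
      (χ (IsCyclotomicExtension.autEquivPow C hirr g)) → ∀ x : L', g (x : C) = ((σ ^ b) x : L'))
    (P : Ideal (𝓞 L')) (hP : P.IsPrime) (hP0 : P ≠ ⊥) (hM : (M : 𝓞 L') ∉ P) : Unr σ P ∧
      ∀ b : ℕ, (b : ZMod n) = ex χ (Ideal.absNorm (dn K P) : ZMod M) →
        Frob (σ ^ b) (Ideal.absNorm (dn K P)) P := by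
  have : IsGalois K C := IsCyclotomicExtension.isGalois {M} K C
  obtain ⟨⟨Q, hQ, hQP⟩⟩ : Nonempty (P.primesOver (𝓞 C)) := inferInstance
  have hQM : (M : 𝓞 C) ∉ Q := by
    intro h
    apply hM
    rw [hQP.over]
    change algebraMap (𝓞 L') (𝓞 C) (M : 𝓞 L') ∈ Q
    rwa [map_natCast]
  have hQ0 : Q ≠ ⊥ := by
    intro h
    apply hP0
    rw [hQP.over, h]
    exact Ideal.under_bot (𝓞 L') (𝓞 C)
  have hdn : dn K P ≠ ⊥ := by
    intro h
    exact hP0 (Ideal.eq_bot_of_comap_eq_bot (R := 𝓞 K) h)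
  let v : HeightOneSpectrum (𝓞 K) := ⟨dn K P, Ideal.comap_isPrime _ _, hdn⟩
  have : P.LiesOver v.asIdeal := ⟨rfl⟩
  have hund : Q.under (𝓞 K) = dn K P := by
    have h1 : Q.LiesOver v.asIdeal := Ideal.LiesOver.trans Q P v.asIdeal
    exact h1.over.symm
  refine ⟨fun i hi => inertia_tower v P Q (fun g hg => inertia_cyc M C Q hQM g hg) _ hi, ?_⟩
  intro b hb x
  obtain ⟨g, hg, hgN⟩ := frob_cyc M C hirr Q hQ0 hQM
  rw [hund] at hg hgN
  have hb' : (b : ZMod n) = Multiplicative.toAdd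
      (χ (IsCyclotomicExtension.autEquivPow C hirr g)) := by
    rw [hb, ← hgN, ex]
    have hu : IsUnit ((IsCyclotomicExtension.autEquivPow C hirr g : (ZMod M)ˣ) : ZMod M) :=
      Units.isUnit _
    rw [dif_pos hu]
    congr 2
    exact Units.ext (IsUnit.unit_spec hu)
  have h2 := hres g b hb' x
  have hmem : ∀ y : 𝓞 L', algebraMap (𝓞 L') (𝓞 C) y ∈ Q → y ∈ P := fun y hy => by
    rw [hQP.over]; exact hy
  apply hmem
  have h3 := hg (algebraMap (𝓞 L') (𝓞 C) x)
  have h4 : g • (algebraMap (𝓞 L') (𝓞 C) x) = algebraMap (𝓞 L') (𝓞 C) ((σ ^ b) • x) := by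
    apply RingOfIntegers.ext
    exact h2
  rw [h4] at h3
  rwa [map_sub, map_pow]

end

end Vale.Agent.P022.H239
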